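import Vale.Agent.P272.S3R.StepD
import Vale.Agent.P272.K.Asm.Final
import Vale.Agent.P272.K.AMP.H470.Glob
import Vale.Agent.P272.K.AMP.LEX.Local

/-!
# P272, Stage 3: Step D and the resolvent bound, unconditionally
-/

open scoped Manifold ContDiff ComplexOrder Topology
open MeasureTheory Set Filter

noncomputable section

namespace Vale.Agent.P272.S3R

open Vale.Agent.P272.K Vale.Agent.P272.K.AMP

variable {n : ℕ} {X : Type} [TopologicalSpace X] [ChartedSpace (Cm n) X]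
  [IsManifold 𝓘(ℂ, Cm n) ω X] [T2Space X] [CompactSpace X] [ConnectedSpace X]
  [MeasurableSpace X] [BorelSpace X] {w : Chart n X → Cm n → Matrix (Fin n) (Fin n) ℂ}

/-- **Step D** of Stage 3 (unconditional) -/
theorem stepD_final (hn : 0 < n) (hw : IsKahler w) {A κ α E : ℝ} (hA : 0 ≤ A) (hκ : 0 ≤ κ)
    (hα : 0 < α) (hκα : 2 * n * κ ≤ α) :
    ∃ K : ℝ, ∀ S S1 : X → ℝ, UpperSemicontinuous S → UpperSemicontinuous S1 → (∀ x, 0 ≤ S x) →
      (∀ x, S x ≤ S1 x) → ∫ x, Real.exp (α * S1 x) ∂(volX w) ≤ E → IneqL w S S1 A κ →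
      ∀ x, S x ≤ K :=
  stepD hn (aubinYau n X) (expInt (LEX.localExp n)) hw hA hκ hα hκα

/-- the `L^{2n} → L^∞` bound of the resolvent (unconditional) -/
theorem sup_bound_final (hn : 0 < n) (hw : IsKahler w) : ∃ c1 : ℝ, 0 < c1 ∧ ∀ f u : X → ℝ,
      SmoothFn (n := n) f → (∀ x, 0 ≤ f x) → SmoothFn (n := n) u →
      (∀ x, u x - lapX w u x = f x) → ∀ T : ℝ, 0 < T →
      ∫ x, f x ^ (2 * n) ∂(volX w) ≤ c1 * T ^ (2 * n) → ∀ x, u x ≤ T :=
  sup_bound hn (aubinYau n X) (expInt (LEX.localExp n)) hw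

end Vale.Agent.P272.S3R
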