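import Vale.Agent.P272.K.AMP.ABP.Step8
import Vale.Agent.P272.K.AMP.H470.Stmt9
import Vale.Agent.P272.K.AMP.Green2
import Vale.Agent.P272.K.AMP.Vol
import Vale.Agent.P272.K.AMP.LinSolve
import Mathlib.Analysis.SpecialFunctions.SmoothTransition

/-!
# P272, Stage 3: the resolvent `u - Δu = f` and its `L^p → L^∞` bound
-/

open scoped Manifold ContDiff ComplexOrder Topology
open MeasureTheory Set Filter

set_option linter.unusedSectionVars false
set_option linter.style.haveILetI false

noncomputable section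

namespace Vale.Agent.P272.S3R

open Vale.Agent.P272.K Vale.Agent.P272.K.AMP

variable {n : ℕ} {X : Type} [TopologicalSpace X] [ChartedSpace (Cm n) X]
  [IsManifold 𝓘(ℂ, Cm n) ω X] [T2Space X] [CompactSpace X]
  {w : Chart n X → Cm n → Matrix (Fin n) (Fin n) ℂ}

lemma lapX_add {u v : X → ℝ} (hu : SmoothFn (n := n) u) (hv : SmoothFn (n := n) v) (x : X) :
    lapX w (fun x => u x + v x) x = lapX w u x + lapX w v x :=
  ABP.lapE_add hu hv (at_chartAt x)

lemma lapX_const_mul {u : X → ℝ} (hu : SmoothFn (n := n) u) (c : ℝ) (x : X) :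
    lapX w (fun x => c * u x) x = c * lapX w u x :=
  ABP.lapE_const_mul hu c (at_chartAt x)

lemma lapX_neg {u : X → ℝ} (hu : SmoothFn (n := n) u) (x : X) :
    lapX w (fun x => -u x) x = -lapX w u x := by
  have := lapX_const_mul (w := w) hu (-1) x
  simpa using this

lemma lapX_nonpos_of_max (hw : IsHermitian w) {u : X → ℝ} (hu : SmoothFn (n := n) u) {x : X}
    (h : ∀ y, u y ≤ u x) : lapX w u x ≤ 0 :=
  ABP.lapE_nonpos_of_max hw hu h (at_chartAt x)

/-- at a point where `u - Δu ≤ v - Δv` and `u - v` is maximal, `u ≤ v` -/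
lemma le_at_max (hw : IsHermitian w) {u v : X → ℝ} (hu : SmoothFn (n := n) u)
    (hv : SmoothFn (n := n) v) {x : X} (hm : ∀ y, u y - v y ≤ u x - v x)
    (h : u x - lapX w u x ≤ v x - lapX w v x) : u x ≤ v x := by
  have h1 : lapX w (fun y => u y + -v y) x ≤ 0 :=
    lapX_nonpos_of_max hw (sm_add hu (sm_neg hv)) fun y => by
      have := hm y; linarith
  rw [lapX_add hu (sm_neg hv), lapX_neg hv] at h1
  linarith

/-- the comparison principle for `1 - Δ` -/
theorem comparison (hw : IsHermitian w) {u v : X → ℝ} (hu : SmoothFn (n := n) u)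
    (hv : SmoothFn (n := n) v) (h : ∀ x, u x - lapX w u x ≤ v x - lapX w v x) (x : X) :
    u x ≤ v x := by
  have hc : Continuous fun y => u y - v y :=
    (INT.SmoothFn.continuous hu).sub (INT.SmoothFn.continuous hv)
  obtain ⟨x0, -, hx0⟩ := isCompact_univ.exists_isMaxOn ⟨x, mem_univ x⟩ hc.continuousOn
  have h1 := le_at_max hw hu hv (x := x0) (fun y => hx0 (mem_univ y)) (h x0)
  have h2 : u x - v x ≤ u x0 - v x0 := hx0 (mem_univ x)
  linarith

lemma nonneg_of_resolvent (hw : IsHermitian w) {u f : X → ℝ} (hu : SmoothFn (n := n) u)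
    (hf : ∀ x, 0 ≤ f x) (h : ∀ x, u x - lapX w u x = f x) (x : X) : 0 ≤ u x := by
  refine comparison hw (u := fun _ => (0 : ℝ)) (smoothFn_const 0) hu (fun y => ?_) x
  rw [h y]
  have h1 : lapX w (fun _ : X => (0 : ℝ)) y = 0 := by
    have := lapX_const_mul (w := w) (u := fun _ : X => (0 : ℝ)) (smoothFn_const 0) 0 y
    simpa using this
  rw [h1]
  simpa using hf y

/-- `t^q ≤ q! α^{-q} e^{αt}` -/
lemma pow_le_exp {α t : ℝ} (hα : 0 < α) (ht : 0 ≤ t) (q : ℕ) :
    t ^ q ≤ q.factorial / α ^ q * Real.exp (α * t) := by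
  have h1 := Real.pow_div_factorial_le_exp (α * t) (by positivity) q
  rw [mul_pow, div_le_iff₀ (by positivity)] at h1
  have h2 : α ^ q * t ^ q ≤ Real.exp (α * t) * q.factorial := h1
  rw [div_mul_eq_mul_div, le_div_iff₀ (by positivity)]
  linarith

variable [MeasurableSpace X] [BorelSpace X]

lemma IX_eq_integral (hw : IsHermitian w) {f : X → ℝ} (hf : Continuous f) :
    ∫ x, f x ∂(volX w) = IX w f := integral_volX hw hf

/-- `∫ u^q ≤ C L^q` as soon as `∫ f^n ≤ c₀ L^n` -/
theorem lq_bound [Nonempty X] (hn : 0 < n) (hAY : AubinYau n X) (hE : ExpInt n X) (hw : IsKahler w)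
    (q : ℕ) : ∃ c0 : ℝ, 0 < c0 ∧ ∃ C : ℝ, 0 < C ∧ ∀ f u : X → ℝ, SmoothFn (n := n) f →
      (∀ x, 0 ≤ f x) → SmoothFn (n := n) u → (∀ x, u x - lapX w u x = f x) → ∀ L : ℝ, 0 < L →
      ∫ x, f x ^ n ∂(volX w) ≤ c0 * L ^ n → ∫ x, u x ^ q ∂(volX w) ≤ C * L ^ q := by
  have hwH := hw.toIsHermitian
  have hn' : (0 : ℝ) < n := by exact_mod_cast hn
  set V : ℝ := IX w fun _ => 1 with hV
  have hV0 : 0 < V := INT.intX_pos (isDensity_IX hwH continuous_const) fun e x hx => by
    rw [one_mul]; exact (Complex.lt_def.1 (hwH.posDef e x hx).det_pos).1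
  obtain ⟨α, hα, K, hK⟩ := hE w hwH 1 (Real.log 2)
  set K' : ℝ := max K 1 with hK'
  have hK'0 : 0 < K' := lt_max_of_lt_right one_pos
  set c0 : ℝ := V / (2 * Real.exp n) with hc0
  have hc00 : 0 < c0 := by positivity
  set C : ℝ := (1 / (n : ℝ)) ^ q * (q.factorial / α ^ q * (Real.exp (α * n) * K')) with hC
  have hC0 : 0 < C := by positivity
  refine ⟨c0, hc00, C, hC0, fun f u hf hf0 hu heq L hL hfL => ?_⟩
  obtain ⟨ψ, hψ, hpos, hψ0, huψ, hmass⟩ := ABP.abp8 hn hAY hw hf hf0 hu heq hL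
  have cf := INT.SmoothFn.continuous hf
  have cu := INT.SmoothFn.continuous hu
  have cψ := INT.SmoothFn.continuous hψ
  have hu0 := nonneg_of_resolvent hwH hu hf0 heq
  rw [IX_eq_integral hwH (by fun_prop)] at hfL ⊢
  -- `sup ψ ≥ - log 2`
  have hsup : ∃ x, -Real.log 2 ≤ ψ x := by
    by_contra hcon
    push Not at hcon
    have h1 : V ≤ IX w (fun x => Real.exp (ψ x) + Real.exp n * (f x / L) ^ n) := by
      rw [hV]
      refine le_trans (le_of_eq ?_) hmass
      unfold IX
      simp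
    have h2 : IX w (fun x => Real.exp (ψ x) + Real.exp n * (f x / L) ^ n) =
        IX w (fun x => Real.exp (ψ x)) + Real.exp n / L ^ n * IX w (fun x => f x ^ n) := by
      rw [IX_add hwH (by fun_prop) (by fun_prop), ← IX_const_mul]
      congr 1
      refine IX_congr fun x => ?_
      rw [div_pow]; ring
    have h3 : IX w (fun x => Real.exp (ψ x)) < V / 2 := by
      obtain ⟨x0, -, hx0⟩ := isCompact_univ.exists_isMaxOn ⟨Classical.arbitrary X, mem_univ _⟩
        cψ.continuousOn
      have h4 : ∀ x, ψ x ≤ ψ x0 := fun x => hx0 (mem_univ x)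
      have h5 : IX w (fun x => Real.exp (ψ x)) ≤ IX w (fun _ => Real.exp (ψ x0) * 1) :=
        IX_mono hwH (by fun_prop) continuous_const fun x => by
          rw [mul_one]; exact Real.exp_le_exp.2 (h4 x)
      rw [IX_const_mul] at h5
      have h6 : Real.exp (ψ x0) < 1 / 2 := by
        have h7 : Real.exp (ψ x0) < Real.exp (-Real.log 2) := Real.exp_lt_exp.2 (hcon x0)
        rwa [Real.exp_neg, Real.exp_log (by norm_num), ← one_div] at h7
      have h8 : Real.exp (ψ x0) * V < 1 / 2 * V := mul_lt_mul_of_pos_right h6 hV0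
      linarith
    have h4 : Real.exp n / L ^ n * IX w (fun x => f x ^ n) ≤ V / 2 := by
      have h5 : Real.exp n / L ^ n * IX w (fun x => f x ^ n) ≤ Real.exp n / L ^ n * (c0 * L ^ n) :=
        mul_le_mul_of_nonneg_left hfL (by positivity)
      refine h5.trans (le_of_eq ?_)
      rw [hc0]; field_simp
    rw [h2] at h1
    linarith
  have hexp := hK ψ hψ (fun e x hx => by
    have h1 := (hpos e x hx).posSemidef
    have h2 : addH (fun e z => ((1 : ℝ) : ℂ) • w e z) ψ e (e x) = addH w ψ e (e x) := by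
      unfold addH; simp
    rw [h2]; exact h1) (fun x => (hψ0 x).trans (Real.log_nonneg (by norm_num))) hsup
  have hexp' : IX w (fun x => Real.exp (-(α * ψ x))) ≤ K' := hexp.trans (le_max_left _ _)
  have hstep : IX w (fun x => u x ^ q) ≤
      IX w (fun x => (L / n) ^ q * (q.factorial / α ^ q * (Real.exp (α * n) *
        Real.exp (-(α * ψ x))))) := by
    refine IX_mono hwH (by fun_prop) (by fun_prop) fun x => ?_
    have h1 : u x ^ q ≤ (L / n * (-ψ x + n)) ^ q := pow_le_pow_left₀ (hu0 x) (huψ x) q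
    have h2 : 0 ≤ -ψ x + n := by have := hψ0 x; linarith
    have h3 := pow_le_exp hα h2 q
    have h4 : Real.exp (α * (-ψ x + n)) = Real.exp (α * n) * Real.exp (-(α * ψ x)) := by
      rw [← Real.exp_add]; congr 1; ring
    rw [h4] at h3
    rw [mul_pow] at h1
    exact h1.trans (mul_le_mul_of_nonneg_left h3 (by positivity))
  rw [IX_const_mul, IX_const_mul, IX_const_mul] at hstep
  refine hstep.trans ?_
  have h1 : (L / n) ^ q * (q.factorial / α ^ q * (Real.exp (α * n) *
      IX w fun x => Real.exp (-(α * ψ x)))) ≤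
      (L / n) ^ q * (q.factorial / α ^ q * (Real.exp (α * n) * K')) := by
    gcongr
  refine h1.trans (le_of_eq ?_)
  rw [hC, div_pow, div_pow, one_pow]
  field_simp

end Vale.Agent.P272.S3R
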