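import Vale.Agent.P272.K.AMP.Vol
import Vale.Agent.P272.K.AMP.Iface
import Mathlib.Geometry.Manifold.PartitionOfUnity
import Mathlib.MeasureTheory.Integral.Bochner.VitaliCaratheodory
import Mathlib.Topology.Metrizable.Urysohn
import Mathlib.Topology.EMetricSpace.Paracompact
import Mathlib.Topology.Semicontinuity.Basic

/-!
# P272, Stage 3: smooth functions between semicontinuous ones; smooth majorants in `L^p`
-/

open scoped Manifold ContDiff ComplexOrder Topology ENNReal
open MeasureTheory Set Filter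

set_option linter.unusedSectionVars false
set_option linter.style.haveILetI false

noncomputable section

namespace Vale.Agent.P272.S3R

open Vale.Agent.P272.K Vale.Agent.P272.K.AMP

variable {n : ℕ} {X : Type*} [TopologicalSpace X] [ChartedSpace (Cm n) X]
  [IsManifold 𝓘(ℂ, Cm n) ω X] [T2Space X] [CompactSpace X]

include n in
variable (n X) in
omit [IsManifold 𝓘(ℂ, Cm n) ω X] in
theorem secondCountable : SecondCountableTopology X :=
  ChartedSpace.secondCountable_of_sigmaCompact (Cm n) X

/-- **smooth insertion**: between an upper semicontinuous function and a strictly larger lower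
semicontinuous function there is a smooth function -/
theorem exists_smooth_between {f : X → ℝ} {g : X → EReal} (hf : UpperSemicontinuous f)
    (hg : LowerSemicontinuous g) (h : ∀ x, (f x : EReal) < g x) :
    ∃ H : X → ℝ, SmoothFn (n := n) H ∧ (∀ x, f x < H x) ∧ ∀ x, (H x : EReal) < g x := by
  haveI := INT.isManifold_real n X
  have h1 : ∀ x, Convex ℝ {c : ℝ | f x < c ∧ (c : EReal) < g x} := fun x => by
    rw [convex_iff_ordConnected]
    refine ⟨fun a ha b hb c hc => ⟨ha.1.trans_le hc.1, lt_of_le_of_lt ?_ hb.2⟩⟩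
    exact_mod_cast hc.2
  have h2 : ∀ x, ∃ c : ℝ, ∀ᶠ y in 𝓝 x, c ∈ {c : ℝ | f y < c ∧ (c : EReal) < g y} := fun x => by
    obtain ⟨c, hc1, hc2⟩ := EReal.lt_iff_exists_real_btwn.1 (h x)
    refine ⟨c, ?_⟩
    filter_upwards [hf x c (by exact_mod_cast hc1), hg x c hc2] with y h1 h2
    exact ⟨h1, h2⟩
  obtain ⟨H, hH⟩ := exists_contMDiffMap_forall_mem_convex_of_local_const (n := (⊤ : ℕ∞))
    𝓘(ℝ, Cm n) h1 h2
  exact ⟨H, INT.smoothFn_of_contMDiff H.contMDiff, fun x => (hH x).1, fun x => (hH x).2⟩

variable [MeasurableSpace X] [BorelSpace X]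

include n in
variable (n) in
omit [IsManifold 𝓘(ℂ, Cm n) ω X] in
theorem weaklyRegular (μ : Measure X) [IsFiniteMeasure μ] : μ.WeaklyRegular := by
  haveI := secondCountable n X
  letI := TopologicalSpace.metrizableSpaceMetric X
  infer_instance

/-- smooth majorants of a bounded nonnegative upper semicontinuous function, with control of the
integral of the `p`-th power -/
theorem exists_smooth_majorant (μ : Measure X) [IsFiniteMeasure μ] {h : X → ℝ}
    (hh : UpperSemicontinuous h) (h0 : ∀ x, 0 ≤ h x) {p : ℕ} (hp : p ≠ 0)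
    (hi : Integrable (fun x => h x ^ p) μ) {ε : ℝ} (hε : 0 < ε) :
    ∃ H : X → ℝ, SmoothFn (n := n) H ∧ (∀ x, h x < H x) ∧ ∫ x, H x ^ p ∂μ ≤ ∫ x, h x ^ p ∂μ + ε := by
  haveI := weaklyRegular n μ
  obtain ⟨g, hg, hgl, hgi, hgt, hgint⟩ := exists_lt_lowerSemicontinuous_integral_lt _ hi hε
  have hu : UpperSemicontinuous fun x => h x ^ p := by
    have h1 : (fun x => h x ^ p) = (fun t : ℝ => (max t 0) ^ p) ∘ h := by
      funext x; simp [max_eq_left (h0 x)]
    rw [h1]
    refine Continuous.comp_upperSemicontinuous (by fun_prop) hh fun a b hab => ?_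
    exact pow_le_pow_left₀ (le_max_right _ _) (max_le_max_right 0 hab) p
  obtain ⟨G, hG, hG1, hG2⟩ := exists_smooth_between (n := n) hu hgl hg
  have hG0 : ∀ x, 0 < G x := fun x => (pow_nonneg (h0 x) p).trans_lt (hG1 x)
  refine ⟨fun x => G x ^ ((p : ℝ)⁻¹), sm_rpow hG hG0 _, fun x => ?_, ?_⟩
  · have h2 : h x = (h x ^ p) ^ ((p : ℝ)⁻¹) := (Real.pow_rpow_inv_natCast (h0 x) hp).symm
    rw [h2]
    exact Real.rpow_lt_rpow (pow_nonneg (h0 x) p) (hG1 x) (by positivity)
  · have h3 : (fun x => (G x ^ ((p : ℝ)⁻¹)) ^ p) = G := by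
      funext x; exact Real.rpow_inv_natCast_pow (hG0 x).le hp
    rw [h3]
    refine le_trans (integral_mono_ae ?_ hgi ?_) hgint.le
    · obtain ⟨C, hC⟩ := (isCompact_range (INT.SmoothFn.continuous hG)).isBounded.exists_norm_le
      exact Integrable.of_bound (INT.SmoothFn.continuous hG).aestronglyMeasurable C
        (Eventually.of_forall fun x => hC _ ⟨x, rfl⟩)
    · filter_upwards [hgt] with x hx
      have h4 := hG2 x
      have h5 : g x ≠ ⊥ := fun hb => by rw [hb] at h4; exact not_lt_bot h4
      have h6 : ((g x).toReal : EReal) = g x := EReal.coe_toReal hx.ne h5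
      rw [← h6] at h4
      exact_mod_cast h4.le

end Vale.Agent.P272.S3R
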