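import Vale.Agent.P272.S3R.Sup
import Vale.Agent.P272.S3R.Smooth

/-!
# P272, Stage 3, Step D: from the viscosity inequality (L) and exponential integrability to a bound
-/

open scoped Manifold ContDiff ComplexOrder Topology
open MeasureTheory Set Filter

set_option linter.unusedSectionVars false
set_option linter.style.haveILetI false

noncomputable section

namespace Vale.Agent.P272.S3R

open Vale.Agent.P272.K Vale.Agent.P272.K.AMP

variable {n : ℕ} {X : Type} [TopologicalSpace X] [ChartedSpace (Cm n) X]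
  {w : Chart n X → Cm n → Matrix (Fin n) (Fin n) ℂ}

/-- **the inequality (L)**: at every maximum point `x` of `S + Z`, `Z` smooth,
`Δ_w Z (x) ≤ A e^{κ S₁(x)}` -/
def IneqL (w : Chart n X → Cm n → Matrix (Fin n) (Fin n) ℂ) (S S1 : X → ℝ) (A κ : ℝ) : Prop :=
  ∀ Z : X → ℝ, SmoothFn (n := n) Z → ∀ x, (∀ y, S y + Z y ≤ S x + Z x) →
    lapX w Z x ≤ A * Real.exp (κ * S1 x)

lemma pow_add3_le {a b c : ℝ} (ha : 0 ≤ a) (hb : 0 ≤ b) (hc : 0 ≤ c) (p : ℕ) :
    (a + b + c) ^ p ≤ 3 ^ p * (a ^ p + b ^ p + c ^ p) := by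
  set M := max a (max b c) with hM
  have h1 : a ≤ M := le_max_left _ _
  have h2 : b ≤ M := (le_max_left _ _).trans (le_max_right _ _)
  have h3 : c ≤ M := (le_max_right _ _).trans (le_max_right _ _)
  have h4 : (a + b + c) ^ p ≤ (3 * M) ^ p := pow_le_pow_left₀ (by positivity) (by linarith) p
  rw [mul_pow] at h4
  refine h4.trans (mul_le_mul_of_nonneg_left ?_ (by positivity))
  have ha' := pow_nonneg ha p
  have hb' := pow_nonneg hb p
  have hc' := pow_nonneg hc p
  rcases max_choice a (max b c) with h | h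
  · rw [hM, h]; linarith
  · rcases max_choice b c with h' | h'
    · rw [hM, h, h']; linarith
    · rw [hM, h, h']; linarith

variable [IsManifold 𝓘(ℂ, Cm n) ω X] [T2Space X] [CompactSpace X]
  [MeasurableSpace X] [BorelSpace X]

lemma bddAbove_of_usc [Nonempty X] {S : X → ℝ} (hS : UpperSemicontinuous S) :
    ∃ M, ∀ x, S x ≤ M := by
  obtain ⟨x0, -, hx0⟩ := (hS.upperSemicontinuousOn univ).exists_isMaxOn univ_nonempty
    isCompact_univ
  exact ⟨S x0, fun x => hx0 (mem_univ x)⟩

lemma integrable_of_usc [Nonempty X] (μ : Measure X) [IsFiniteMeasure μ] {S : X → ℝ}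
    (hS : UpperSemicontinuous S) (h0 : ∀ x, 0 ≤ S x) : Integrable S μ := by
  obtain ⟨M, hM⟩ := bddAbove_of_usc hS
  refine Integrable.of_bound hS.measurable.aestronglyMeasurable M (Eventually.of_forall fun x => ?_)
  rw [Real.norm_eq_abs, abs_of_nonneg (h0 x)]
  exact hM x

/-- **Step D** -/
theorem stepD [Nonempty X] (hn : 0 < n) (hAY : AubinYau n X) (hE : ExpInt n X) (hw : IsKahler w)
    {A κ α E : ℝ} (hA : 0 ≤ A) (hκ : 0 ≤ κ) (hα : 0 < α) (hκα : 2 * n * κ ≤ α) :
    ∃ K : ℝ, ∀ S S1 : X → ℝ, UpperSemicontinuous S → UpperSemicontinuous S1 → (∀ x, 0 ≤ S x) →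
      (∀ x, S x ≤ S1 x) → ∫ x, Real.exp (α * S1 x) ∂(volX w) ≤ E → IneqL w S S1 A κ →
      ∀ x, S x ≤ K := by
  have hwH := hw.toIsHermitian
  haveI := isFiniteMeasure_volX hwH
  set μ : Measure X := volX w with hμ
  obtain ⟨c1, hc1, hsup⟩ := sup_bound hn hAY hE hw
  set E' : ℝ := max E 1 with hE'
  have hE'0 : 0 < E' := lt_max_of_lt_right one_pos
  set V : ℝ := μ.real univ with hV
  have hV0 : 0 ≤ V := measureReal_nonneg
  set K : ℝ := max 0 (Real.log (2 * 3 ^ (2 * n) * E' / c1) / α) with hK
  have hK0 : 0 ≤ K := le_max_left _ _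
  have hKexp : 3 ^ (2 * n) * E' ≤ c1 / 2 * Real.exp (α * K) := by
    have h1 : Real.log (2 * 3 ^ (2 * n) * E' / c1) ≤ α * K := by
      have h2 : Real.log (2 * 3 ^ (2 * n) * E' / c1) / α ≤ K := le_max_right _ _
      have h3 := (div_le_iff₀ hα).1 h2
      linarith
    have h3 : 2 * 3 ^ (2 * n) * E' / c1 ≤ Real.exp (α * K) := by
      rwa [← Real.log_le_iff_le_exp (by positivity)]
    rw [div_le_iff₀ hc1] at h3
    linarith
  set N : ℝ := max 1 (2 * (3 ^ (2 * n) * (A ^ (2 * n) * E' + V) + 1) / c1) with hN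
  have hN1 : 1 ≤ N := le_max_left _ _
  have hNp : 3 ^ (2 * n) * (A ^ (2 * n) * E' + V) + 1 ≤ c1 / 2 * N ^ (2 * n) := by
    have h1 : 2 * (3 ^ (2 * n) * (A ^ (2 * n) * E' + V) + 1) / c1 ≤ N := le_max_right _ _
    have h2 : N ≤ N ^ (2 * n) := le_self_pow₀ hN1 (by omega)
    rw [div_le_iff₀ hc1] at h1
    nlinarith
  refine ⟨K + N, fun S S1 hS hS1 hS0 hSS1 hint hL => ?_⟩
  have hint' : ∫ x, Real.exp (α * S1 x) ∂μ ≤ E' := hint.trans (le_max_left _ _)
  have hS10 : ∀ x, 0 ≤ S1 x := fun x => (hS0 x).trans (hSS1 x)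
  have uexp : ∀ c : ℝ, 0 ≤ c → UpperSemicontinuous fun x => Real.exp (c * S1 x) := by
    intro c hc
    have h1 : (fun x => Real.exp (c * S1 x)) = (fun t : ℝ => Real.exp (c * t)) ∘ S1 := rfl
    rw [h1]
    refine Continuous.comp_upperSemicontinuous (by fun_prop) hS1 fun a b hab => ?_
    exact Real.exp_le_exp.2 (mul_le_mul_of_nonneg_left hab hc)
  -- the set `S ≥ K`
  set D : Set X := {x | K ≤ S x} with hD
  have hDc : IsClosed D := hS.isClosed_preimage K
  have hDm : Real.exp (α * K) * μ.real D ≤ E' := by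
    refine le_trans ?_ hint'
    have h1 : Real.exp (α * K) * μ.real D =
        ∫ x, D.indicator (fun _ => Real.exp (α * K)) x ∂μ := by
      rw [integral_indicator hDc.measurableSet]
      simp only [integral_const, MeasurableSet.univ, measureReal_restrict_apply, univ_inter,
        smul_eq_mul]
      rw [mul_comm]
    rw [h1]
    refine integral_mono ((integrable_const _).indicator hDc.measurableSet)
      (integrable_of_usc μ (uexp α hα.le) fun x => (Real.exp_pos _).le) fun x => ?_
    simp only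
    by_cases hx : x ∈ D
    · rw [indicator_of_mem hx]
      refine Real.exp_le_exp.2 (mul_le_mul_of_nonneg_left ?_ hα.le)
      exact (show K ≤ S x from hx).trans (hSS1 x)
    · rw [indicator_of_notMem hx]; exact (Real.exp_pos _).le
  -- the right hand side
  set h : X → ℝ := fun x => A * Real.exp (κ * S1 x) with hh
  have hh0 : ∀ x, 0 ≤ h x := fun x => mul_nonneg hA (Real.exp_pos _).le
  have hhu : UpperSemicontinuous h := by
    have h1 : h = (fun t : ℝ => A * Real.exp (κ * t)) ∘ S1 := rfl
    rw [h1]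
    refine Continuous.comp_upperSemicontinuous (by fun_prop) hS1 fun a b hab => ?_
    exact mul_le_mul_of_nonneg_left
      (Real.exp_le_exp.2 (mul_le_mul_of_nonneg_left hab hκ)) hA
  set g : X → ℝ := fun x => h x + 1 + D.indicator (fun _ => N) x with hg
  have hN0 : 0 ≤ N := by linarith
  have hind0 : ∀ x, 0 ≤ D.indicator (fun _ => N) x := fun x => indicator_nonneg (fun _ _ => hN0) x
  have hg0 : ∀ x, 0 ≤ g x := fun x => by
    have := hh0 x; have := hind0 x
    simp only [hg]; linarith
  have hgu : UpperSemicontinuous g :=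
    (hhu.add upperSemicontinuous_const).add (hDc.upperSemicontinuous_indicator hN0)
  have hgp : Integrable (fun x => g x ^ (2 * n)) μ := by
    have h1 : (fun x => g x ^ (2 * n)) = (fun t : ℝ => (max t 0) ^ (2 * n)) ∘ g := by
      funext x; simp [max_eq_left (hg0 x)]
    refine integrable_of_usc μ ?_ fun x => pow_nonneg (hg0 x) _
    rw [h1]
    refine Continuous.comp_upperSemicontinuous (by fun_prop) hgu fun a b hab => ?_
    exact pow_le_pow_left₀ (le_max_right _ _) (max_le_max_right 0 hab) _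
  obtain ⟨H, hH, hHg, hHint⟩ := exists_smooth_majorant (n := n) μ hgu hg0 (p := 2 * n) (by omega)
    hgp one_pos
  -- the integral of `g^{2n}`
  have ihp : Integrable (fun x => Real.exp (α * S1 x)) μ :=
    integrable_of_usc μ (uexp α hα.le) fun x => (Real.exp_pos _).le
  have hgle : ∫ x, g x ^ (2 * n) ∂μ ≤
      3 ^ (2 * n) * (A ^ (2 * n) * E' + V + N ^ (2 * n) * μ.real D) := by
    have h1 : ∫ x, g x ^ (2 * n) ∂μ ≤ ∫ x, 3 ^ (2 * n) * (A ^ (2 * n) * Real.exp (α * S1 x) + 1 +
        D.indicator (fun _ => N ^ (2 * n)) x) ∂μ := by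
      refine integral_mono hgp (Integrable.const_mul (((ihp.const_mul _).add
        (integrable_const _)).add ((integrable_const _).indicator hDc.measurableSet)) _)
        fun x => ?_
      simp only
      refine (pow_add3_le (hh0 x) zero_le_one (hind0 x) (2 * n)).trans ?_
      refine mul_le_mul_of_nonneg_left ?_ (by positivity)
      have h2 : h x ^ (2 * n) ≤ A ^ (2 * n) * Real.exp (α * S1 x) := by
        simp only [hh]
        rw [mul_pow, ← Real.exp_nat_mul]
        refine mul_le_mul_of_nonneg_left (Real.exp_le_exp.2 ?_) (pow_nonneg hA _)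
        have h3 := mul_le_mul_of_nonneg_right hκα (hS10 x)
        push_cast
        linarith
      have h3 : D.indicator (fun _ => N) x ^ (2 * n) = D.indicator (fun _ => N ^ (2 * n)) x := by
        by_cases hx : x ∈ D
        · rw [indicator_of_mem hx, indicator_of_mem hx]
        · rw [indicator_of_notMem hx, indicator_of_notMem hx, zero_pow (by omega)]
      rw [h3, one_pow]
      linarith
    refine h1.trans (le_of_eq_of_le ?_ (mul_le_mul_of_nonneg_left (add_le_add_left
      (add_le_add_left (mul_le_mul_of_nonneg_left hint' (pow_nonneg hA (2 * n))) V)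
      (N ^ (2 * n) * μ.real D)) (by positivity)))
    rw [integral_const_mul, integral_add, integral_add, integral_const_mul,
      integral_indicator hDc.measurableSet]
    · simp only [integral_const, MeasurableSet.univ, measureReal_restrict_apply, univ_inter,
        smul_eq_mul, mul_one]
      ring
    · exact ihp.const_mul _
    · exact integrable_const _
    · exact (ihp.const_mul _).add (integrable_const _)
    · exact (integrable_const _).indicator hDc.measurableSet
  have hHn : ∫ x, H x ^ (2 * n) ∂μ ≤ c1 * N ^ (2 * n) := by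
    refine hHint.trans ?_
    have h1 : 3 ^ (2 * n) * (N ^ (2 * n) * μ.real D) ≤ c1 / 2 * N ^ (2 * n) := by
      have h2 : 3 ^ (2 * n) * μ.real D ≤ c1 / 2 := by
        have h3 : 3 ^ (2 * n) * (Real.exp (α * K) * μ.real D) ≤ 3 ^ (2 * n) * E' :=
          mul_le_mul_of_nonneg_left hDm (by positivity)
        have h4 : Real.exp (α * K) * (3 ^ (2 * n) * μ.real D) ≤ Real.exp (α * K) * (c1 / 2) := by
          linarith
        exact le_of_mul_le_mul_left h4 (Real.exp_pos _)
      have h3 := mul_le_mul_of_nonneg_left h2 (pow_nonneg hN0 (2 * n))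
      linarith
    have h2 : 3 ^ (2 * n) * (A ^ (2 * n) * E' + V + N ^ (2 * n) * μ.real D) =
        3 ^ (2 * n) * (A ^ (2 * n) * E' + V) + 3 ^ (2 * n) * (N ^ (2 * n) * μ.real D) := by ring
    linarith
  have hH0 : ∀ x, 0 ≤ H x := fun x => (hg0 x).trans (hHg x).le
  obtain ⟨u, hu, hueq⟩ := exists_solve hwH hH
  have hu0 := nonneg_of_resolvent hwH hu hH0 hueq
  have huN : ∀ x, u x ≤ N := hsup H u hH hH0 hu hueq N (by linarith) hHn
  -- the maximum of `S - u`
  have hSu : UpperSemicontinuous fun x => S x + -u x :=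
    hS.add (INT.SmoothFn.continuous hu).neg.upperSemicontinuous
  obtain ⟨x0, -, hx0⟩ := (hSu.upperSemicontinuousOn univ).exists_isMaxOn univ_nonempty
    isCompact_univ
  have hm : ∀ y, S y + -u y ≤ S x0 + -u x0 := fun y => hx0 (mem_univ y)
  have hLx := hL (fun x => -u x) (sm_neg hu) x0 hm
  rw [lapX_neg hu] at hLx
  have h1 := hueq x0
  have h2 := hHg x0
  have hSK : S x0 < K := by
    by_contra hcon
    push Not at hcon
    have h3 : g x0 = h x0 + 1 + N := by
      simp only [hg]
      rw [indicator_of_mem (show x0 ∈ D from hcon)]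
    have h4 : h x0 = A * Real.exp (κ * S1 x0) := rfl
    have h5 := huN x0
    linarith
  intro y
  have h3 := hm y
  have h4 := huN y
  have h5 := hu0 x0
  linarith

end Vale.Agent.P272.S3R
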