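import Vale.Agent.P272.S3R.Res

/-!
# P272, Stage 3: the `L^{2n} → L^∞` bound of the resolvent
-/

open scoped Manifold ContDiff ComplexOrder Topology
open MeasureTheory Set Filter

set_option linter.unusedSectionVars false
set_option linter.style.haveILetI false

noncomputable section

namespace Vale.Agent.P272.S3R

open Vale.Agent.P272.K Vale.Agent.P272.K.AMP

/-- De Giorgi iteration -/
theorem deGiorgi {φ : ℝ → ℝ} {V B T : ℝ} {m : ℕ} (hm : m ≠ 0) (hφ : Antitone φ) (h0 : φ 0 ≤ V)
    (hφ0 : ∀ s, 0 ≤ φ s) (hT : 0 < T) (hB0 : 0 ≤ B)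
    (hstep : ∀ s t : ℝ, 0 ≤ s → 0 < t → t ^ m * φ (s + 2 * t) ≤ B * φ s ^ 2)
    (hB : 2 ^ m * B * V ≤ T ^ m) : φ (4 * T) ≤ 0 := by
  have hV : 0 ≤ V := (hφ0 0).trans h0
  have key : ∀ k : ℕ, φ (4 * T * (1 - (1 / 2 : ℝ) ^ k)) ≤ V * ((1 / 2 : ℝ) ^ k) ^ m := by
    intro k
    induction k with
    | zero => simpa using h0
    | succ k ih =>
      set a : ℝ := (1 / 2 : ℝ) ^ k with ha
      have ha0 : 0 < a := by positivity
      have ha1 : a ≤ 1 := pow_le_one₀ (by norm_num) (by norm_num)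
      have h1 := hstep (4 * T * (1 - a)) (T * a)
        (mul_nonneg (by positivity) (by linarith)) (by positivity)
      have e1 : 4 * T * (1 - a) + 2 * (T * a) = 4 * T * (1 - (1 / 2 : ℝ) ^ (k + 1)) := by
        rw [pow_succ, ← ha]; ring
      rw [e1] at h1
      have h2 : B * φ (4 * T * (1 - a)) ^ 2 ≤ B * (V * a ^ m) ^ 2 :=
        mul_le_mul_of_nonneg_left (pow_le_pow_left₀ (hφ0 _) ih 2) hB0
      have h3 : (T * a) ^ m * φ (4 * T * (1 - (1 / 2 : ℝ) ^ (k + 1))) ≤
          (T * a) ^ m * (V * ((1 / 2 : ℝ) ^ (k + 1)) ^ m) := by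
        refine (h1.trans h2).trans ?_
        have h4 : ((1 / 2 : ℝ) ^ (k + 1)) ^ m = a ^ m * (1 / 2) ^ m := by
          rw [pow_succ, ← ha, mul_pow]
        rw [h4, mul_pow T a m]
        have h5 : 2 ^ m * B * V * ((V * a ^ m * a ^ m) * (1 / 2) ^ m) ≤
            T ^ m * ((V * a ^ m * a ^ m) * (1 / 2) ^ m) :=
          mul_le_mul_of_nonneg_right hB (by positivity)
        have h6 : (2 : ℝ) ^ m * (1 / 2) ^ m = 1 := by
          rw [← mul_pow]; norm_num
        calc B * (V * a ^ m) ^ 2 = B * V * (V * a ^ m * a ^ m) * (2 ^ m * (1 / 2) ^ m) := by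
              rw [h6]; ring
          _ = 2 ^ m * B * V * ((V * a ^ m * a ^ m) * (1 / 2) ^ m) := by ring
          _ ≤ _ := h5
          _ = T ^ m * a ^ m * (V * (a ^ m * (1 / 2) ^ m)) := by ring
      exact le_of_mul_le_mul_left h3 (by positivity)
  have h1 : ∀ k : ℕ, φ (4 * T) ≤ V * ((1 / 2 : ℝ) ^ k) ^ m := fun k =>
    (hφ (by
      have : (0 : ℝ) < (1 / 2 : ℝ) ^ k := by positivity
      nlinarith)).trans (key k)
  have h2 : Tendsto (fun k : ℕ => V * ((1 / 2 : ℝ) ^ k) ^ m) atTop (𝓝 (V * 0 ^ m)) :=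
    ((tendsto_pow_atTop_nhds_zero_of_lt_one (by norm_num) (by norm_num)).pow m).const_mul V
  rw [zero_pow hm, mul_zero] at h2
  exact ge_of_tendsto' h2 h1

/-- a limiting argument -/
lemma le_of_forall_scale {n : ℕ} (hn : n ≠ 0) {a b c0 C : ℝ} (ha : 0 ≤ a) (hc0 : 0 < c0)
    (h : ∀ L : ℝ, 0 < L → a ≤ c0 * L ^ n → b ≤ C * L ^ (4 * n)) : b ≤ C * (a / c0) ^ 4 := by
  have h1 : ∀ δ : ℝ, 0 < δ → b ≤ C * ((a + δ) / c0) ^ 4 := by
    intro δ hδ
    have h2 : 0 < (a + δ) / c0 := by positivity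
    have h3 := h (((a + δ) / c0) ^ ((n : ℝ)⁻¹)) (Real.rpow_pos_of_pos h2 _) (by
      rw [Real.rpow_inv_natCast_pow h2.le hn]
      have : c0 * ((a + δ) / c0) = a + δ := by field_simp
      rw [this]; linarith)
    rw [mul_comm 4 n, pow_mul, Real.rpow_inv_natCast_pow h2.le hn] at h3
    exact h3
  have h2 : Tendsto (fun δ : ℝ => C * ((a + δ) / c0) ^ 4) (𝓝[>] 0) (𝓝 (C * ((a + 0) / c0) ^ 4)) := by
    have : Continuous fun δ : ℝ => C * ((a + δ) / c0) ^ 4 := by fun_prop
    exact (this.tendsto 0).mono_left nhdsWithin_le_nhds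
  rw [add_zero] at h2
  exact ge_of_tendsto h2 (eventually_nhdsWithin_of_forall fun δ hδ => h1 δ hδ)

variable {n : ℕ} {X : Type} [TopologicalSpace X] [ChartedSpace (Cm n) X]
  [IsManifold 𝓘(ℂ, Cm n) ω X] [T2Space X] [CompactSpace X]
  {w : Chart n X → Cm n → Matrix (Fin n) (Fin n) ℂ}

lemma smooth_trans {u : X → ℝ} (hu : SmoothFn (n := n) u) (s t : ℝ) :
    SmoothFn (n := n) fun x => Real.smoothTransition ((u x - s) / t) :=
  sm_comp (φ := fun y => Real.smoothTransition ((y - s) / t)) (fun x => by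
    have h1 : ContDiff ℝ ∞ (fun y : ℝ => (y - s) / t) := by fun_prop
    exact (Real.smoothTransition.contDiff.comp h1).contDiffAt) hu

variable [MeasurableSpace X] [BorelSpace X]

/-- the volume is positive on nonempty open sets -/
theorem volX_open_pos {g : Chart n X → Cm n → Matrix (Fin n) (Fin n) ℂ} (hg : IsHermitian g)
    {U : Set X} (hU : IsOpen U) (hne : U.Nonempty) : 0 < volX g U := by
  obtain ⟨x, hxU⟩ := hne
  have h1 : ∃ i, 0 < (INT.part n X).ρ i x := by
    by_contra hcon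
    push Not at hcon
    have := (INT.part n X).sum x
    have h2 : ∑ i, (INT.part n X).ρ i x ≤ 0 := Finset.sum_nonpos fun i _ => hcon i
    linarith
  obtain ⟨i, hi⟩ := h1
  have hx : x ∈ ((INT.part n X).e i).source := (INT.part n X).supp i (subset_tsupport _ (by
    simp only [Function.mem_support]; exact hi.ne'))
  set D : Cm n → ℝ := fun z => (INT.part n X).ρ i (((INT.part n X).e i).symm z) *
    (g ((INT.part n X).e i) z).det.re with hD
  have cD : ContinuousOn D ((INT.part n X).e i).target :=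
    (((INT.part n X).cont i).comp_continuousOn ((INT.part n X).e i).continuousOn_symm).mul
      ((isDensity_det_metric hg).continuousOn ((INT.part n X).mem i))
  have hDx : 0 < D ((INT.part n X).e i x) := by
    simp only [hD]
    rw [((INT.part n X).e i).left_inv hx]
    exact mul_pos hi (det_metric_pos hg _ x ⟨(INT.part n X).mem i, hx⟩)
  have hWo : IsOpen (((INT.part n X).e i).target ∩ D ⁻¹' Ioi (D ((INT.part n X).e i x) / 2)) :=
    cD.isOpen_inter_preimage ((INT.part n X).e i).open_target isOpen_Ioi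
  have hUo : IsOpen (((INT.part n X).e i).target ∩ ((INT.part n X).e i).symm ⁻¹' U) :=
    ((INT.part n X).e i).isOpen_inter_preimage_symm hU
  set W := (((INT.part n X).e i).target ∩ D ⁻¹' Ioi (D ((INT.part n X).e i x) / 2)) ∩
    (((INT.part n X).e i).target ∩ ((INT.part n X).e i).symm ⁻¹' U) with hW
  have hWopen : IsOpen W := hWo.inter hUo
  have hWpos : 0 < volume W := hWopen.measure_pos volume ⟨(INT.part n X).e i x,
    ⟨((INT.part n X).e i).map_source hx, by
      show D ((INT.part n X).e i x) / 2 < D ((INT.part n X).e i x); linarith⟩,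
    ((INT.part n X).e i).map_source hx, by
      show ((INT.part n X).e i).symm ((INT.part n X).e i x) ∈ U
      rw [((INT.part n X).e i).left_inv hx]; exact hxU⟩
  have h2 : 0 < (volPiece (fun e z => (g e z).det.re) i) (((INT.part n X).e i).symm ⁻¹' U) := by
    refine lt_of_lt_of_le ?_ (measure_mono (show W ⊆ _ from fun z hz => hz.2.2))
    unfold volPiece
    rw [withDensity_apply _ hWopen.measurableSet, Measure.restrict_restrict hWopen.measurableSet,
      inter_eq_left.2 (show W ⊆ _ from fun z hz => hz.1.1)]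
    have h3 : ∫⁻ _ in W, ENNReal.ofReal (D ((INT.part n X).e i x) / 2) ≤
        ∫⁻ z in W, ENNReal.ofReal (D z) :=
      setLIntegral_mono' hWopen.measurableSet fun z hz => ENNReal.ofReal_le_ofReal (le_of_lt hz.1.2)
    refine lt_of_lt_of_le ?_ h3
    rw [setLIntegral_const]
    exact ENNReal.mul_pos (by simpa using hDx) hWpos.ne'
  have h4 : ((volPiece (fun e z => (g e z).det.re) i).map ((INT.part n X).e i).symm) U ≤
      volX g U := by
    unfold volX volD
    rw [Measure.finsetSum_apply]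
    exact Finset.single_le_sum (f := fun i => ((volPiece (fun e z => (g e z).det.re) i).map
      ((INT.part n X).e i).symm) U) (fun _ _ => bot_le) (Finset.mem_univ i)
  rw [Measure.map_apply_of_aemeasurable (aemeasurable_symm _ i) hU.measurableSet] at h4
  exact h2.trans_le h4

/-- Cauchy-Schwarz: `(∫_A g)² ≤ (∫ g²) μ(A)` -/
lemma sq_integral_le (μ : Measure X) [IsFiniteMeasure μ] {A : Set X} (hA : MeasurableSet A)
    {F G : X → ℝ} (hF : Integrable F μ) (hG : Integrable (fun x => G x ^ 2) μ)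
    (h0 : ∀ x, x ∉ A → F x ≤ 0) (hle : ∀ x, F x ≤ G x) (hF0 : 0 ≤ ∫ x, F x ∂μ) :
    (∫ x, F x ∂μ) ^ 2 ≤ (∫ x, G x ^ 2 ∂μ) * μ.real A := by
  have hind : Integrable (fun x => A.indicator (fun _ => (1 : ℝ)) x) μ :=
    (integrable_const (1 : ℝ)).indicator hA
  have hm : ∫ x, A.indicator (fun _ => (1 : ℝ)) x ∂μ = μ.real A := by
    rw [integral_indicator hA]; simp
  have hq : ∀ a : ℝ, 0 < a → 2 * a * (∫ x, F x ∂μ) ≤ (∫ x, G x ^ 2 ∂μ) + a ^ 2 * μ.real A := by
    intro a ha
    rw [← integral_const_mul, ← hm, ← integral_const_mul, ← integral_add hG (hind.const_mul _)]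
    refine integral_mono (hF.const_mul _) (hG.add (hind.const_mul _)) fun x => ?_
    simp only
    by_cases hx : x ∈ A
    · rw [indicator_of_mem hx]
      have h1 := hle x
      nlinarith [sq_nonneg (G x - a), mul_le_mul_of_nonneg_left h1 ha.le]
    · rw [indicator_of_notMem hx]
      have h1 := h0 x hx
      have := mul_nonneg ha.le (neg_nonneg.2 h1)
      nlinarith [sq_nonneg (G x)]
  set I := ∫ x, F x ∂μ with hI
  set J := ∫ x, G x ^ 2 ∂μ with hJ
  set M := μ.real A with hM
  have hM0 : 0 ≤ M := measureReal_nonneg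
  have hJ0 : 0 ≤ J := integral_nonneg fun x => sq_nonneg _
  rcases hM0.eq_or_lt with h | h
  · -- `M = 0`
    have h1 : I ≤ 0 := by
      by_contra hcon
      push Not at hcon
      have h2 := hq ((J + 1) / I) (by positivity)
      rw [← h] at h2
      have h3 : 2 * ((J + 1) / I) * I = 2 * (J + 1) := by field_simp
      rw [h3] at h2
      linarith
    have h2 : I = 0 := le_antisymm h1 hF0
    rw [h2, ← h]; simp
  · rcases hF0.eq_or_lt with h' | h'
    · rw [← h']; simp; positivity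
    · have h2 := hq (I / M) (by positivity)
      have h3 : 2 * (I / M) * I = 2 * (I ^ 2 / M) := by ring
      have h4 : (I / M) ^ 2 * M = I ^ 2 / M := by field_simp
      rw [h3, h4] at h2
      have h5 : I ^ 2 / M ≤ J := by linarith
      rwa [div_le_iff₀ h] at h5

/-- **the `L^{2n} → L^∞` bound of the resolvent** -/
theorem sup_bound [Nonempty X] (hn : 0 < n) (hAY : AubinYau n X) (hE : ExpInt n X)
    (hw : IsKahler w) : ∃ c1 : ℝ, 0 < c1 ∧ ∀ f u : X → ℝ, SmoothFn (n := n) f →
      (∀ x, 0 ≤ f x) → SmoothFn (n := n) u → (∀ x, u x - lapX w u x = f x) → ∀ T : ℝ, 0 < T →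
      ∫ x, f x ^ (2 * n) ∂(volX w) ≤ c1 * T ^ (2 * n) → ∀ x, u x ≤ T := by
  have hwH := hw.toIsHermitian
  haveI := isFiniteMeasure_volX hwH
  set μ : Measure X := volX w with hμ
  obtain ⟨c0, hc0, C, hC, hq⟩ := lq_bound hn hAY hE hw (4 * n)
  set V : ℝ := μ.real univ with hV
  have hV0 : 0 < V := by
    rw [hV, measureReal_def]
    refine ENNReal.toReal_pos (volX_open_pos hwH isOpen_univ univ_nonempty).ne' ?_
    exact measure_ne_top _ _
  set Q : ℝ := c0 ^ 4 / (C * V * 8 ^ (4 * n)) with hQ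
  have hQ0 : 0 < Q := by positivity
  refine ⟨Real.sqrt Q, Real.sqrt_pos.2 hQ0, fun f u hf hf0 hu heq T hT hfT => ?_⟩
  have cf := INT.SmoothFn.continuous hf
  have cu := INT.SmoothFn.continuous hu
  have hint : ∀ {g : X → ℝ}, Continuous g → Integrable g μ := fun hg => integrable_volX hwH hg
  set Φ : ℝ := ∫ x, f x ^ (2 * n) ∂μ with hΦ
  have hΦ0 : 0 ≤ Φ := integral_nonneg fun x => pow_nonneg (hf0 x) _
  set φ : ℝ → ℝ := fun s => μ.real {x | s < u x} with hφ
  have hφ0 : ∀ s, 0 ≤ φ s := fun s => measureReal_nonneg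
  have hanti : Antitone φ := fun s t hst =>
    measureReal_mono (fun x (hx : t < u x) => lt_of_le_of_lt hst hx)
  set B : ℝ := C / c0 ^ 4 * Φ ^ 2 with hB
  have hB0 : 0 ≤ B := by positivity
  have hmeas : ∀ s, MeasurableSet {x | s < u x} := fun s =>
    (isOpen_lt continuous_const cu).measurableSet
  have hstep : ∀ s t : ℝ, 0 ≤ s → 0 < t → t ^ (4 * n) * φ (s + 2 * t) ≤ B * φ s ^ 2 := by
    intro s t hs ht
    set ρ : X → ℝ := fun x => Real.smoothTransition ((u x - s) / t) with hρ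
    have hρs : SmoothFn (n := n) ρ := smooth_trans hu s t
    have hρ0 : ∀ x, 0 ≤ ρ x := fun x => Real.smoothTransition.nonneg _
    have hρ1 : ∀ x, ρ x ≤ 1 := fun x => Real.smoothTransition.le_one _
    have hFs : SmoothFn (n := n) fun x => f x * ρ x := sm_mul hf hρs
    have hF0 : ∀ x, 0 ≤ f x * ρ x := fun x => mul_nonneg (hf0 x) (hρ0 x)
    obtain ⟨v, hv, hveq⟩ := exists_solve hwH hFs
    have cv := INT.SmoothFn.continuous hv
    have cρ := INT.SmoothFn.continuous hρs
    have hv0 := nonneg_of_resolvent hwH hv hF0 hveq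
    -- `u ≤ s + t + v`
    have huv : ∀ x, u x ≤ s + t + v x := by
      intro x
      have hc : Continuous fun y => u y - v y := cu.sub cv
      obtain ⟨x0, -, hx0⟩ := isCompact_univ.exists_isMaxOn ⟨x, mem_univ x⟩ hc.continuousOn
      have hm : ∀ y, u y - v y ≤ u x0 - v x0 := fun y => hx0 (mem_univ y)
      have h1 := hm x
      rcases le_or_gt (s + t) (u x0) with h | h
      · have h2 : ρ x0 = 1 := Real.smoothTransition.one_of_one_le (by
          rw [le_div_iff₀ ht]; linarith)
        have h3 : u x0 ≤ v x0 := le_at_max hwH hu hv hm (by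
          rw [heq x0, hveq x0, h2, mul_one])
        linarith
      · have := hv0 x0
        linarith
    -- Chebyshev
    have hcheb : t ^ (4 * n) * φ (s + 2 * t) ≤ ∫ x, v x ^ (4 * n) ∂μ := by
      have h1 : t ^ (4 * n) * φ (s + 2 * t) =
          ∫ x, {x | s + 2 * t < u x}.indicator (fun _ => t ^ (4 * n)) x ∂μ := by
        rw [integral_indicator (hmeas _)]
        simp only [integral_const, MeasurableSet.univ, measureReal_restrict_apply, univ_inter,
          smul_eq_mul]
        rw [mul_comm]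
      rw [h1]
      refine integral_mono ((integrable_const _).indicator (hmeas _)) (hint (by fun_prop))
        fun x => ?_
      simp only
      by_cases hx : x ∈ {x | s + 2 * t < u x}
      · rw [indicator_of_mem hx]
        have h2 : s + 2 * t < u x := hx
        have h3 := huv x
        exact pow_le_pow_left₀ ht.le (by linarith) _
      · rw [indicator_of_notMem hx]
        exact pow_nonneg (hv0 x) _
    -- the `L^{4n}` bound
    have ha0 : 0 ≤ ∫ x, (f x * ρ x) ^ n ∂μ := integral_nonneg fun x => pow_nonneg (hF0 x) _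
    have hb := le_of_forall_scale hn.ne' ha0 hc0 fun L hL h =>
      hq _ v hFs hF0 hv hveq L hL h
    have hCS : (∫ x, (f x * ρ x) ^ n ∂μ) ^ 2 ≤ (∫ x, (f x ^ n) ^ 2 ∂μ) * μ.real {x | s < u x} := by
      refine sq_integral_le μ (hmeas s) (hint (by fun_prop)) (hint (by fun_prop)) (fun x hx => ?_)
        (fun x => ?_) ha0
      · have h1 : u x ≤ s := not_lt.1 hx
        have h2 : ρ x = 0 := Real.smoothTransition.zero_of_nonpos
          (div_nonpos_of_nonpos_of_nonneg (by linarith) ht.le)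
        rw [h2, mul_zero, zero_pow hn.ne']
      · refine pow_le_pow_left₀ (hF0 x) ?_ n
        exact mul_le_of_le_one_right (hf0 x) (hρ1 x)
    have hΦ' : ∫ x, (f x ^ n) ^ 2 ∂μ = Φ := by
      rw [hΦ]; congr 1; funext x; rw [← pow_mul, mul_comm]
    rw [hΦ'] at hCS
    refine hcheb.trans (hb.trans ?_)
    have h1 : ((∫ x, (f x * ρ x) ^ n ∂μ) ^ 2) ^ 2 ≤ (Φ * φ s) ^ 2 :=
      pow_le_pow_left₀ (sq_nonneg _) hCS 2
    calc C * ((∫ x, (f x * ρ x) ^ n ∂μ) / c0) ^ 4
        = C / c0 ^ 4 * ((∫ x, (f x * ρ x) ^ n ∂μ) ^ 2) ^ 2 := by rw [div_pow]; ring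
      _ ≤ C / c0 ^ 4 * (Φ * φ s) ^ 2 := mul_le_mul_of_nonneg_left h1 (by positivity)
      _ = B * φ s ^ 2 := by rw [hB]; ring
  have hfin := deGiorgi (φ := φ) (V := V) (B := B) (T := T / 4) (m := 4 * n) (by omega) hanti
    (measureReal_mono (subset_univ _)) hφ0 (by positivity) hB0 hstep (by
      have h1 : Φ ^ 2 ≤ (Real.sqrt Q * T ^ (2 * n)) ^ 2 := pow_le_pow_left₀ hΦ0 hfT 2
      rw [mul_pow, Real.sq_sqrt hQ0.le] at h1
      calc 2 ^ (4 * n) * B * V = 2 ^ (4 * n) * (C / c0 ^ 4) * V * Φ ^ 2 := by rw [hB]; ring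
        _ ≤ 2 ^ (4 * n) * (C / c0 ^ 4) * V * (Q * (T ^ (2 * n)) ^ 2) :=
            mul_le_mul_of_nonneg_left h1 (by positivity)
        _ = (T / 4) ^ (4 * n) := by
            rw [hQ, div_pow, ← pow_mul]
            have h2 : (8 : ℝ) ^ (4 * n) = 2 ^ (4 * n) * 4 ^ (4 * n) := by
              rw [← mul_pow]; norm_num
            have h3 : 2 * n * 2 = 4 * n := by ring
            rw [h2, h3]
            field_simp)
  have h4 : 4 * (T / 4) = T := by ring
  rw [h4] at hfin
  intro x
  by_contra hcon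
  push Not at hcon
  have h5 : 0 < μ {x | T < u x} :=
    volX_open_pos hwH (isOpen_lt continuous_const cu) ⟨x, hcon⟩
  have h6 : 0 < φ T := ENNReal.toReal_pos h5.ne' (measure_ne_top _ _)
  linarith

end Vale.Agent.P272.S3R
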